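import Vale.Agent.Lib.P356.helper23.Defs

/-!
# P356 pool job G (helper69): `exists_spectral_poly`

For a Hermitian matrix `h` and a complex number `lam` there is a polynomial `p` with
`p(lam) = 1` and `h p(h) = lam p(h)` (Lagrange product over the other eigenvalues).
-/

namespace Vale.Agent.Lib.P356.H69

open Matrix
open Vale.Agent.Lib.P356

/-- A polynomial in `h` acts on an eigenvector of `h` by the value of the polynomial. -/
theorem h69_aeval_mulVec {n : Type*} [Fintype n] [DecidableEq n] (h : Matrix n n ℂ)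
    (v : n → ℂ) (μ : ℂ) (hv : h *ᵥ v = μ • v) (s : Polynomial ℂ) :
    (Polynomial.aeval h s) *ᵥ v = s.eval μ • v := by
  induction s using Polynomial.induction_on with
  | C a =>
    rw [Polynomial.aeval_C, Polynomial.eval_C, Algebra.algebraMap_eq_smul_one,
      Matrix.smul_mulVec, Matrix.one_mulVec]
  | add p q hp hq =>
    rw [map_add, Matrix.add_mulVec, hp, hq, Polynomial.eval_add, add_smul]
  | monomial k a ih =>
    have e1 : Polynomial.aeval h (Polynomial.C a * Polynomial.X ^ (k + 1)) =
        Polynomial.aeval h (Polynomial.C a * Polynomial.X ^ k) * h := by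
      rw [pow_succ, ← mul_assoc]
      exact (map_mul (Polynomial.aeval h) _ _).trans (by rw [Polynomial.aeval_X])
    have e2 : (Polynomial.C a * Polynomial.X ^ (k + 1)).eval μ =
        (Polynomial.C a * Polynomial.X ^ k).eval μ * μ := by
      rw [pow_succ, ← mul_assoc]
      exact Polynomial.eval_mul.trans (by rw [Polynomial.eval_X])
    rw [e1, e2, ← Matrix.mulVec_mulVec, hv, Matrix.mulVec_smul, ih, smul_smul, mul_comm μ _]

/-- A matrix that kills every vector of the eigenvector basis of a Hermitian matrix is zero. -/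
theorem h69_eq_zero_of_mulVec_basis {n : Type*} [Fintype n] [DecidableEq n] (h : Matrix n n ℂ)
    (hh : h.IsHermitian) (Q : Matrix n n ℂ)
    (hQ : ∀ j, Q *ᵥ ⇑(hh.eigenvectorBasis j) = 0) : Q = 0 := by
  have hQU : Q * (hh.eigenvectorUnitary : Matrix n n ℂ) = 0 := by
    ext i j
    have h1 : (Q * (hh.eigenvectorUnitary : Matrix n n ℂ)) *ᵥ Pi.single j 1 = 0 := by
      rw [← Matrix.mulVec_mulVec, hh.eigenvectorUnitary_mulVec j, hQ j]
    have h2 := congrFun h1 i
    rw [Matrix.mulVec_single_one] at h2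
    simpa [Matrix.col_apply] using h2
  have hUU : (hh.eigenvectorUnitary : Matrix n n ℂ) * star (hh.eigenvectorUnitary : Matrix n n ℂ)
      = 1 := Matrix.mem_unitaryGroup_iff.mp (hh.eigenvectorUnitary).2
  calc Q = Q * ((hh.eigenvectorUnitary : Matrix n n ℂ) *
        star (hh.eigenvectorUnitary : Matrix n n ℂ)) := by rw [hUU, mul_one]
    _ = (Q * (hh.eigenvectorUnitary : Matrix n n ℂ)) *
        star (hh.eigenvectorUnitary : Matrix n n ℂ) := by rw [mul_assoc]
    _ = 0 := by rw [hQU, zero_mul]

/-- Pool job P356-G. -/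
theorem exists_spectral_poly {n : Type*} [Fintype n] [DecidableEq n] (h : Matrix n n ℂ)
    (hh : h.IsHermitian) (lam : ℂ) :
    ∃ p : Polynomial ℂ, p.eval lam = 1 ∧
      h * Polynomial.aeval h p = lam • Polynomial.aeval h p := by
  classical
  obtain ⟨S, hS⟩ : ∃ S : Finset ℂ,
      S = (Finset.univ.image (fun j => ((hh.eigenvalues j : ℝ) : ℂ))).erase lam := ⟨_, rfl⟩
  obtain ⟨p, hp⟩ : ∃ p : Polynomial ℂ,
      p = ∏ μ ∈ S, (Polynomial.C (lam - μ)⁻¹ * (Polynomial.X - Polynomial.C μ)) := ⟨_, rfl⟩
  refine ⟨p, ?_, ?_⟩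
  · rw [hp, Polynomial.eval_prod]
    apply Finset.prod_eq_one
    intro μ hμ
    rw [hS] at hμ
    have hne : lam - μ ≠ 0 := sub_ne_zero.mpr (fun e => (Finset.mem_erase.mp hμ).1 e.symm)
    simp only [Polynomial.eval_mul, Polynomial.eval_C, Polynomial.eval_sub, Polynomial.eval_X]
    exact inv_mul_cancel₀ hne
  · have hvj : ∀ j, h *ᵥ ⇑(hh.eigenvectorBasis j) =
        ((hh.eigenvalues j : ℝ) : ℂ) • ⇑(hh.eigenvectorBasis j) := by
      intro j
      rw [hh.mulVec_eigenvectorBasis j]
      funext i
      simp [Complex.real_smul]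
    have hev : ∀ j, ((Polynomial.X - Polynomial.C lam) * p).eval
        ((hh.eigenvalues j : ℝ) : ℂ) = 0 := by
      intro j
      rw [Polynomial.eval_mul]
      by_cases hj : ((hh.eigenvalues j : ℝ) : ℂ) = lam
      · rw [hj]
        simp
      · have hmem : ((hh.eigenvalues j : ℝ) : ℂ) ∈ S := by
          rw [hS]
          exact Finset.mem_erase.mpr ⟨hj, Finset.mem_image.mpr ⟨j, Finset.mem_univ j, rfl⟩⟩
        have h0 : p.eval ((hh.eigenvalues j : ℝ) : ℂ) = 0 := by
          rw [hp, Polynomial.eval_prod]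
          apply Finset.prod_eq_zero hmem
          simp
        rw [h0, mul_zero]
    have hr : Polynomial.aeval h ((Polynomial.X - Polynomial.C lam) * p) = 0 := by
      apply h69_eq_zero_of_mulVec_basis h hh
      intro j
      rw [h69_aeval_mulVec h _ _ (hvj j), hev j, zero_smul]
    have e : Polynomial.aeval h ((Polynomial.X - Polynomial.C lam) * p) =
        h * Polynomial.aeval h p - lam • Polynomial.aeval h p := by
      refine (map_mul (Polynomial.aeval h) _ _).trans ?_
      rw [map_sub, Polynomial.aeval_X, Polynomial.aeval_C, Algebra.algebraMap_eq_smul_one,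
        sub_mul, smul_mul_assoc, one_mul]
    rw [e] at hr
    exact sub_eq_zero.mp hr

end Vale.Agent.Lib.P356.H69
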